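import Vale.Agent.P300.H921.Mod
import Vale.Agent.P300.H753.Rot
import Vale.Agent.P300.H573.CmpCov

/-!
# P300, block [HAT] (helper787): the extended charts of the completion

`Hat D L R p q s : ℂ × ℂ → D.Cmp` is the continuous extension to `Om R p q` of
`incl ∘ theta L p q s` (defined on `Omp R p q`), for ANY region chart of `Y` (also for charts which
do not belong to the atlas of the models `D`): the completion is compact with finite fibres over
`Y` and the axes do not separate locally.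
-/

open Set Topology Filter Complex
open Vale.Agent.P300.H753

namespace Vale.Agent.P300.H787

/-! ### Extension across a locally non-separating set -/

section ext

variable {Z Y T : Type*} [TopologicalSpace Z] [TopologicalSpace Y] [TopologicalSpace T]

theorem neBot_of_nonsep {A B : Set T}
    (nonsep : ∀ x ∈ B, ∀ W ∈ 𝓝 x, ∃ V ⊆ W, V ∈ 𝓝 x ∧ IsConnected (V ∩ A)) {x : T} (hx : x ∈ B) :
    NeBot (𝓝[A] x) := by
  rw [← mem_closure_iff_nhdsWithin_neBot, mem_closure_iff_nhds]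
  intro W hW
  obtain ⟨V, hVW, -, hc⟩ := nonsep x hx W hW
  obtain ⟨y, hyV, hyA⟩ := hc.nonempty
  exact ⟨y, hVW hyV, hyA⟩

/-- A continuous map to a compact space with finite fibres over `Y` has limits at the points of a
locally non-separating set over which its projection is continuous. -/
theorem exists_lim [CompactSpace Z] [T2Space Z] [T2Space Y] {π : Z → Y} (hπ : Continuous π)
    (hfin : ∀ y, (π ⁻¹' {y}).Finite) {A B : Set T} (hAB : A ⊆ B) {f : T → Z}
    (hf : ContinuousOn f A) {F : T → Y} (hF : ContinuousOn F B) (hfF : ∀ x ∈ A, π (f x) = F x)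
    (nonsep : ∀ x ∈ B, ∀ W ∈ 𝓝 x, ∃ V ⊆ W, V ∈ 𝓝 x ∧ IsConnected (V ∩ A)) {x : T} (hx : x ∈ B) :
    ∃ z, Tendsto f (𝓝[A] x) (𝓝 z) ∧ π z = F x := by
  have hne : NeBot (𝓝[A] x) := neBot_of_nonsep nonsep hx
  obtain ⟨z, hz⟩ := exists_clusterPt_of_compactSpace (map f (𝓝[A] x))
  have hFx : Tendsto (fun y => π (f y)) (𝓝[A] x) (𝓝 (F x)) := by
    have h1 : Tendsto F (𝓝[A] x) (𝓝 (F x)) := (hF x hx).mono_left (nhdsWithin_mono x hAB)
    refine h1.congr' ?_
    filter_upwards [self_mem_nhdsWithin] with y hy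
    exact (hfF y hy).symm
  have hπz : π z = F x := by
    have h1 : ClusterPt (π z) (map π (map f (𝓝[A] x))) := hz.map hπ.continuousAt tendsto_map
    have h2 : ClusterPt (π z) (𝓝 (F x)) := by
      refine h1.mono ?_
      rw [map_map]
      exact hFx
    exact eq_of_nhds_neBot h2
  refine ⟨z, ?_, hπz⟩
  intro W' hW'
  obtain ⟨W1, hW1W', hW1o, hzW1⟩ := mem_nhds_iff.1 hW'
  have hFib : (π ⁻¹' {F x}).Finite := hfin _
  obtain ⟨O1, O2, hO1, hO2, hzO1, hFO2, hdis⟩ :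
      SeparatedNhds {z} (π ⁻¹' {F x} \ {z}) :=
    SeparatedNhds.of_isCompact_isCompact (Set.finite_singleton z).isCompact
      (hFib.subset sdiff_subset).isCompact (by simp)
  have hCc : IsCompact ((O1 ∩ W1) ∪ O2)ᶜ :=
    (((hO1.inter hW1o).union hO2).isClosed_compl).isCompact
  have hCx : F x ∉ π '' ((O1 ∩ W1) ∪ O2)ᶜ := by
    rintro ⟨y, hy, hyx⟩
    apply hy
    by_cases hyz : y = z
    · left; subst hyz; exact ⟨hzO1 rfl, hzW1⟩
    · right; exact hFO2 ⟨hyx, hyz⟩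
  have hN : (π '' ((O1 ∩ W1) ∪ O2)ᶜ)ᶜ ∈ 𝓝 (F x) :=
    ((hCc.image hπ).isClosed.isOpen_compl).mem_nhds hCx
  have hFN : F ⁻¹' (π '' ((O1 ∩ W1) ∪ O2)ᶜ)ᶜ ∈ 𝓝[B] x := hF x hx hN
  obtain ⟨U, hU, hUB⟩ := mem_nhdsWithin_iff_exists_mem_nhds_inter.1 hFN
  obtain ⟨V, hVU, hV, hc⟩ := nonsep x hx U hU
  have himg : IsConnected (f '' (V ∩ A)) := hc.image f (hf.mono inter_subset_right)
  have hsub : f '' (V ∩ A) ⊆ (O1 ∩ W1) ∪ O2 := by
    rintro _ ⟨y, ⟨hyV, hyA⟩, rfl⟩
    by_contra hcon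
    have h1 := hUB ⟨hVU hyV, hAB hyA⟩
    exact h1 ⟨f y, hcon, hfF y hyA⟩
  have hVA : V ∩ A ∈ 𝓝[A] x := by
    rw [inter_comm]
    exact inter_mem_nhdsWithin A hV
  have hmeet : (f '' (V ∩ A) ∩ (O1 ∩ W1)).Nonempty := by
    have h1 : O1 ∩ W1 ∈ 𝓝 z := inter_mem (hO1.mem_nhds (hzO1 rfl)) (hW1o.mem_nhds hzW1)
    have h2 : f '' (V ∩ A) ∈ map f (𝓝[A] x) := image_mem_map hVA
    have := (clusterPt_iff_nonempty.1 hz) h1 h2
    rwa [inter_comm] at this
  have hdis' : Disjoint (O1 ∩ W1) O2 := hdis.mono_left inter_subset_left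
  have hin : f '' (V ∩ A) ⊆ O1 ∩ W1 :=
    himg.isPreconnected.subset_left_of_subset_union (hO1.inter hW1o) hO2 hdis' hsub hmeet
  rw [mem_map]
  exact mem_of_superset hVA fun y hy => hW1W' (hin ⟨y, hy, rfl⟩).2

end ext

/-! ### The axes do not separate -/

theorem nonsep_Om {R : Set (ℂ × ℂ)} (hR : IsOpen R) (p q : ℕ) :
    ∀ x ∈ Om R p q, ∀ W ∈ 𝓝 x, ∃ V ⊆ W, V ∈ 𝓝 x ∧ IsConnected (V ∩ Omp R p q) := by
  intro x hx W hW
  obtain ⟨r, hr, hrW⟩ := Metric.mem_nhds_iff.1 (Filter.inter_mem hW ((isOpen_Om hR p q).mem_nhds hx))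
  refine ⟨Metric.ball x r, fun y hy => (hrW hy).1, Metric.ball_mem_nhds x hr, ?_⟩
  have hpi : IsConnected ((Metric.ball x.1 r \ {0}) ×ˢ (Metric.ball x.2 r \ {0})) :=
    (Mod.isConnected_ball_diff _ hr).prod (Mod.isConnected_ball_diff _ hr)
  convert hpi using 1
  ext y
  constructor
  · rintro ⟨h1, h2⟩
    rw [← ball_prod_same] at h1
    exact ⟨⟨h1.1, h2.2.1⟩, h1.2, h2.2.2⟩
  · rintro ⟨⟨h1, h2⟩, h3, h4⟩
    have h5 : y ∈ Metric.ball x r := by
      rw [← ball_prod_same]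
      exact ⟨h1, h3⟩
    exact ⟨h5, (hrW h5).2, h2, h4⟩

theorem Omp_subset_Om {R : Set (ℂ × ℂ)} {p q : ℕ} : Omp R p q ⊆ Om R p q := fun _ h => h.1

/-! ### The extended chart -/

section hat

variable {X0 Y S : Type} [TopologicalSpace X0] [TopologicalSpace Y] {qq : X0 → Y}

theorem finite_fibre (D : H573.Models qq) [T2Space Y] [Finite D.I] (y : Y) :
    (D.proj ⁻¹' {y}).Finite := by
  have h1 : D.proj ⁻¹' {y} ⊆ ⋃ i : D.I, D.hat i '' (D.m i ⁻¹' {y}) := by
    intro x hx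
    obtain ⟨i, p, rfl⟩ := D.exists_hat x
    refine mem_iUnion.2 ⟨i, p, ?_, rfl⟩
    have h2 : D.proj (D.hat i p) = y := hx
    rw [D.proj_hat] at h2
    exact h2
  exact (finite_iUnion fun i => (D.fin i y).image _).subset h1

/-- The extended chart of the label `s`. -/
noncomputable def Hat (D : H573.Models qq) (L : ℂ → ℂ → S → X0) (R : Set (ℂ × ℂ)) (p q : ℕ)
    (s : S) : ℂ × ℂ → D.Cmp :=
  extendFrom (Omp R p q) fun x => D.incl (theta L p q s x)

variable {U : Type} [TopologicalSpace U] {pr : X0 → U} {inc : U → Y} {R : Set (ℂ × ℂ)}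
  {kap : ℂ × ℂ → U} {kY : ℂ × ℂ → Y} {a b : Equiv.Perm S} {L : ℂ → ℂ → S → X0}

section one

variable (D : H573.Models fun x : X0 => inc (pr x)) [T2Space Y] [CompactSpace Y] [Finite D.I]

theorem exists_lim_theta (H : Node R pr kap a b L) (hY : ContinuousOn kY R)
    (hinc : ∀ w ∈ Rp R, inc (kap w) = kY w) {p q : ℕ} {s : S} (hs : Ord a b s p q) {x : ℂ × ℂ}
    (hx : x ∈ Om R p q) :
    ∃ z : D.Cmp, Tendsto (fun x => D.incl (theta L p q s x)) (𝓝[Omp R p q] x) (𝓝 z) ∧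
      D.proj z = kY (pw p q x) := by
  have hc : CompactSpace D.Cmp := D.compactSpace
  refine exists_lim (B := Om R p q) D.continuous_proj (finite_fibre D) Omp_subset_Om
    (D.continuous_incl.comp_continuousOn (H.continuousOn_theta hs))
    (F := fun x => kY (pw p q x)) (hY.comp (continuous_pw p q).continuousOn fun x hx => hx)
    ?_ (nonsep_Om H.opR p q) hx
  intro x hx
  show D.proj (D.incl (theta L p q s x)) = _
  rw [D.proj_incl, H.pr_theta hx, hinc _ (pw_mem_Rp hx)]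

/-- The extended chart is continuous. -/
theorem continuousOn_Hat (H : Node R pr kap a b L) (hY : ContinuousOn kY R)
    (hinc : ∀ w ∈ Rp R, inc (kap w) = kY w) {p q : ℕ} {s : S} (hs : Ord a b s p q) :
    ContinuousOn (Hat D L R p q s) (Om R p q) := by
  have hc : CompactSpace D.Cmp := D.compactSpace
  refine continuousOn_extendFrom (Om_subset_closure_Omp H.opR p q) fun x hx => ?_
  obtain ⟨z, hz, -⟩ := exists_lim_theta D H hY hinc hs hx
  exact ⟨z, hz⟩

omit [Finite D.I] in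
/-- The extended chart extends the chart of the piece. -/
theorem Hat_of_mem (H : Node R pr kap a b L) {p q : ℕ} {s : S} (hs : Ord a b s p q) {x : ℂ × ℂ}
    (hx : x ∈ Omp R p q) : Hat D L R p q s x = D.incl (theta L p q s x) :=
  extendFrom_extends (f := fun x => D.incl (theta L p q s x))
    (D.continuous_incl.comp_continuousOn (H.continuousOn_theta hs)) x hx

/-- The projection of the extended chart to `Y`. -/
theorem proj_Hat (H : Node R pr kap a b L) (hY : ContinuousOn kY R)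
    (hinc : ∀ w ∈ Rp R, inc (kap w) = kY w) {p q : ℕ} {s : S} (hs : Ord a b s p q) {x : ℂ × ℂ}
    (hx : x ∈ Om R p q) : D.proj (Hat D L R p q s x) = kY (pw p q x) := by
  obtain ⟨z, hz, hzx⟩ := exists_lim_theta D H hY hinc hs hx
  have h1 : Hat D L R p q s x = z := extendFrom_eq (Om_subset_closure_Omp H.opR p q hx) hz
  rw [h1, hzx]

/-- Uniqueness: a map which is continuous on `Om` and equal to the chart on `Omp`. -/
theorem eq_Hat (H : Node R pr kap a b L) (hY : ContinuousOn kY R)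
    (hinc : ∀ w ∈ Rp R, inc (kap w) = kY w) {p q : ℕ} {s : S} (hs : Ord a b s p q)
    {g : ℂ × ℂ → D.Cmp} (hg : ContinuousOn g (Om R p q))
    (hgt : ∀ x ∈ Omp R p q, g x = D.incl (theta L p q s x)) {x : ℂ × ℂ} (hx : x ∈ Om R p q) :
    g x = Hat D L R p q s x := by
  have h1 : EqOn g (Hat D L R p q s) (Omp R p q) := fun y hy => by
    rw [hgt y hy, Hat_of_mem D H hs hy]
  exact h1.of_subset_closure hg (continuousOn_Hat D H hY hinc hs) Omp_subset_Om
    (Om_subset_closure_Omp H.opR p q) hx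

/-- Rotation rule for the extended charts of the labels of one orbit. -/
theorem Hat_rot (H : Node R pr kap a b L) (hY : ContinuousOn kY R)
    (hinc : ∀ w ∈ Rp R, inc (kap w) = kY w) {p q : ℕ} {s : S} (hs : Ord a b s p q) (k l : ℤ)
    {x : ℂ × ℂ} (hx : x ∈ Om R p q) :
    Hat D L R p q ((a ^ k * b ^ l) s) x = Hat D L R p q s (rot p q k l x) := by
  symm
  refine eq_Hat D H hY hinc (hs.orbit H.comm k l)
    (g := fun x => Hat D L R p q s (rot p q k l x)) ?_ ?_ hx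
  · exact (continuousOn_Hat D H hY hinc hs).comp (rot p q k l).continuous.continuousOn
      fun y hy => (rot_mem_Om hs.p0 hs.q0 k l).2 hy
  · intro y hy
    show Hat D L R p q s (rot p q k l y) = _
    rw [Hat_of_mem D H hs ((rot_mem_Omp hs.p0 hs.q0 k l).2 hy), H.theta_rot hs k l hy]

end one

/-- Naturality of the extended charts, equal orders. -/
theorem map_Hat {X0' U' Y' S' : Type} [TopologicalSpace X0'] [TopologicalSpace U']
    [TopologicalSpace Y'] {pr' : X0' → U'} {inc' : U' → Y'} {kap' : ℂ × ℂ → U'}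
    {kY' : ℂ × ℂ → Y'} {a' b' : Equiv.Perm S'} {L' : ℂ → ℂ → S' → X0'}
    (D' : H573.Models fun x : X0' => inc' (pr' x)) [T2Space Y'] [CompactSpace Y'] [Finite D'.I]
    (D : H573.Models fun x : X0 => inc (pr x)) [T2Space Y] [CompactSpace Y] [Finite D.I]
    (H' : Node R pr' kap' a' b' L') (hY' : ContinuousOn kY' R)
    (hinc' : ∀ w ∈ Rp R, inc' (kap' w) = kY' w)
    (H : Node R pr kap a b L) (hY : ContinuousOn kY R) (hinc : ∀ w ∈ Rp R, inc (kap w) = kY w)
    {g : X0' → X0} {G : D'.Cmp → D.Cmp} (hG : Continuous G)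
    (hGi : ∀ x, G (D'.incl x) = D.incl (g x)) {φ : S' → S}
    (hF : ∀ z ∈ Rt R, ∀ s, g (L' z.1 z.2 s) = L z.1 z.2 (φ s)) {p q : ℕ} {s' : S'}
    (hs' : Ord a' b' s' p q) (hs : Ord a b (φ s') p q) {x : ℂ × ℂ} (hx : x ∈ Om R p q) :
    G (Hat D' L' R p q s' x) = Hat D L R p q (φ s') x := by
  refine eq_Hat D H hY hinc hs (g := fun x => G (Hat D' L' R p q s' x)) ?_ ?_ hx
  · exact hG.comp_continuousOn (continuousOn_Hat D' H' hY' hinc' hs')
  · intro y hy
    show G (Hat D' L' R p q s' y) = _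
    rw [Hat_of_mem D' H' hs' hy, hGi]
    congr 1
    have hmx : ((p : ℂ) * log y.1, (q : ℂ) * log y.2) ∈ Rt R := by
      rw [← exp_mem_Omp_iff, Complex.exp_log hy.2.1, Complex.exp_log hy.2.2]; exact hy
    exact hF _ hmx s'

end hat

/-! ### The charts of the atlas: injectivity -/

theorem Ord.unique {S : Type*} {a b : Equiv.Perm S} {s : S} {p q p' q' : ℕ} (h : Ord a b s p q)
    (h' : Ord a b s p' q') : p = p' ∧ q = q' := by
  have h1 := (h.iff p 0).2 ⟨dvd_rfl, dvd_zero _⟩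
  have h2 := (h.iff 0 q).2 ⟨dvd_zero _, dvd_rfl⟩
  have h3 := (h'.iff p' 0).2 ⟨dvd_rfl, dvd_zero _⟩
  have h4 := (h'.iff 0 q').2 ⟨dvd_zero _, dvd_rfl⟩
  rw [h'.iff] at h1 h2
  rw [h.iff] at h3 h4
  exact ⟨Nat.dvd_antisymm (Int.natCast_dvd_natCast.1 h3.1) (Int.natCast_dvd_natCast.1 h1.1),
    Nat.dvd_antisymm (Int.natCast_dvd_natCast.1 h4.2) (Int.natCast_dvd_natCast.1 h2.2)⟩

section atlas

variable {R : Set (ℂ × ℂ)} {ι U X0 S Y : Type} [TopologicalSpace X0] [TopologicalSpace U]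
  [TopologicalSpace Y] {kap : ι → ℂ × ℂ → U} {pr : X0 → U}
  (D : Mod.Lifts R kap pr S) (E : Mod.YData R kap Y)

instance [h : Finite D.I] : Finite (D.models E).I := h

variable [T2Space Y] [CompactSpace Y] [Finite D.I]

/-- The extended chart of a label of the atlas is a rotation of the chart of its piece. -/
theorem exists_Hat_eq (ν : ι) {s : S} {p q : ℕ} (hs : Ord (D.a ν) (D.b ν) s p q) :
    ∃ k l : ℤ, ∀ x ∈ Om R p q, ∃ hx : Mod.toPH.symm (rot p q k l x) ∈
      Mod.OmE R (D.pp (D.mkI ν s)) (D.qq (D.mkI ν s)),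
      Hat (D.models E) (D.L ν) R p q s x = (D.models E).hat (D.mkI ν s) ⟨_, hx⟩ := by
  obtain ⟨k, l, hkl⟩ := D.rep_mkI ν s
  have hrep : s = (D.a ν ^ (-k) * D.b ν ^ (-l)) (D.rep (D.mkI ν s)) := by
    have h1 : Commute (D.b ν ^ (-l)) (D.a ν ^ k) := (D.node ν).comm.symm.zpow_zpow (-l) k
    have h2 : D.a ν ^ (-k) * D.b ν ^ (-l) * (D.a ν ^ k * D.b ν ^ l) = 1 := by
      rw [mul_assoc, ← mul_assoc (D.b ν ^ (-l)), h1.eq, mul_assoc (D.a ν ^ k), ← zpow_add,
        neg_add_cancel, zpow_zero, mul_one, ← zpow_add, neg_add_cancel, zpow_zero]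
    rw [hkl, ← Equiv.Perm.mul_apply, h2]
    rfl
  have ho : Ord (D.a ν) (D.b ν) (D.rep (D.mkI ν s)) p q := by
    rw [hkl]; exact hs.orbit (D.node ν).comm k l
  have ho' : Ord (D.a ν) (D.b ν) (D.rep (D.mkI ν s)) (D.pp (D.mkI ν s)) (D.qq (D.mkI ν s)) :=
    D.ord' (D.mkI ν s)
  obtain ⟨hp, hq⟩ := Ord.unique ho ho'
  have hmem : ∀ x ∈ Om R p q, Mod.toPH.symm (rot p q (-k) (-l) x) ∈
      Mod.OmE R (D.pp (D.mkI ν s)) (D.qq (D.mkI ν s)) := by
    intro x hx
    rw [← hp, ← hq]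
    exact (rot_mem_Om hs.p0 hs.q0 (-k) (-l)).2 hx
  refine ⟨-k, -l, fun x hx => ⟨hmem x hx, ?_⟩⟩
  classical
  let g : ℂ × ℂ → (D.models E).Cmp := fun y =>
    if hy : y ∈ Om R p q then (D.models E).hat (D.mkI ν s) ⟨_, hmem y hy⟩
    else (D.models E).incl (D.L ν 0 0 s)
  have hg : ∀ y (hy : y ∈ Om R p q), g y = (D.models E).hat (D.mkI ν s) ⟨_, hmem y hy⟩ :=
    fun y hy => dif_pos hy
  rw [← hg x hx]
  symm
  refine eq_Hat (D.models E) (D.node ν) (E.cont ν) (E.inc_kap ν) hs (g := g) ?_ ?_ hx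
  · rw [continuousOn_iff_continuous_domRestrict]
    have h1 : (Om R p q).domRestrict g = fun y : Om R p q =>
        (D.models E).hat (D.mkI ν s) (⟨_, hmem y.1 y.2⟩ : D.M (D.mkI ν s)) := by
      funext y
      exact hg y.1 y.2
    have h2 : Continuous fun y : Om R p q =>
        (⟨_, hmem y.1 y.2⟩ : Mod.OmE R (D.pp (D.mkI ν s)) (D.qq (D.mkI ν s))) :=
      Continuous.subtype_mk (Mod.toPH.symm.continuous.comp
        ((rot p q (-k) (-l)).continuous.comp continuous_subtype_val)) _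
    have h3 : @Continuous _ _ ((D.models E).topM (D.mkI ν s)) _
        ((D.models E).hat (D.mkI ν s)) := (D.models E).continuous_hat _
    rw [h1]
    exact @Continuous.comp _ _ _ _ ((D.models E).topM (D.mkI ν s)) _ _ _ h3 h2
  · intro y hy
    rw [hg y hy.1]
    have h0 : (⟨_, hmem y hy.1⟩ : D.M (D.mkI ν s)) ∈ D.M0 (D.mkI ν s) :=
      (rot_ne (p := p) (q := q) (-k) (-l)).2 hy.2
    have h2 := (D.models E).incl_h (D.mkI ν s) ⟨⟨_, hmem y hy.1⟩, h0⟩
    refine h2.symm.trans ?_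
    congr 1
    have h3 : (D.models E).h (D.mkI ν s) ⟨⟨_, hmem y hy.1⟩, h0⟩ =
        theta (D.L ν) (D.pp (D.mkI ν s)) (D.qq (D.mkI ν s)) (D.rep (D.mkI ν s))
          (rot p q (-k) (-l) y) := rfl
    rw [h3, ← hp, ← hq, ← (D.node ν).theta_rot ho (-k) (-l) hy, ← hrep]

/-- Extended charts of the atlas over the same region which meet have labels in one orbit. -/
theorem orbit_of_Hat_eq (ν : ι) {s s' : S} {p q p' q' : ℕ} (hs : Ord (D.a ν) (D.b ν) s p q)
    (hs' : Ord (D.a ν) (D.b ν) s' p' q') {x x' : ℂ × ℂ} (hx : x ∈ Om R p q)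
    (hx' : x' ∈ Om R p' q')
    (h : Hat (D.models E) (D.L ν) R p q s x = Hat (D.models E) (D.L ν) R p' q' s' x') :
    ∃ k l : ℤ, s' = (D.a ν ^ k * D.b ν ^ l) s := by
  obtain ⟨k, l, h1⟩ := exists_Hat_eq D E ν hs
  obtain ⟨k', l', h1'⟩ := exists_Hat_eq D E ν hs'
  obtain ⟨h2, h3⟩ := h1 x hx
  obtain ⟨h2', h3'⟩ := h1' x' hx'
  rw [h3, h3'] at h
  have h4 : D.mkI ν s = D.mkI ν s' :=
    (D.models E).index_eq rfl ((D.models E).hat_eq_iff.1 h).le
  exact D.mkI_eq_iff.1 h4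

/-- An extended chart of the atlas is injective. -/
theorem injOn_Hat (ν : ι) {s : S} {p q : ℕ} (hs : Ord (D.a ν) (D.b ν) s p q) :
    InjOn (Hat (D.models E) (D.L ν) R p q s) (Om R p q) := by
  intro x hx x' hx' h
  obtain ⟨k, l, h1⟩ := exists_Hat_eq D E ν hs
  obtain ⟨h2, h3⟩ := h1 x hx
  obtain ⟨h2', h3'⟩ := h1 x' hx'
  rw [h3, h3'] at h
  have h4 := congrArg Subtype.val ((D.models E).hat_injective _ h)
  exact (rot p q k l).injective (Mod.toPH.symm.injective h4)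

end atlas

end Vale.Agent.P300.H787
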