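import Vale.Agent.P300.H787.Hat
import Vale.Agent.P300.H142.Kap

/-!
# P300, [NINJ] (helper787): the nodes of the good labels are distinct
-/

open Set Topology Filter Complex
open Vale.Agent.P300.H753

namespace Vale.Agent.P300.H787

variable {R : Set (ℂ × ℂ)} {ι U X0 S Y : Type} [TopologicalSpace X0] [TopologicalSpace U]
  [TopologicalSpace Y] {kap : ι → ℂ × ℂ → U} {pr : X0 → U}
  (D : Mod.Lifts R kap pr S) (E : Mod.YData R kap Y)
  [T2Space Y] [CompactSpace Y] [Finite D.I]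

/-- Continuous extensions of the charts of two labels over one region of the atlas, with one
common value: the labels are in one orbit. -/
theorem orbit_of_eq (ν : ι) {s s' : S} {p q p' q' : ℕ} (hs : Ord (D.a ν) (D.b ν) s p q)
    (hs' : Ord (D.a ν) (D.b ν) s' p' q') {H H' : ℂ × ℂ → (D.models E).Cmp}
    (hH : ContinuousOn H (Om R p q)) (hH' : ContinuousOn H' (Om R p' q'))
    (h1 : ∀ x ∈ Omp R p q, H x = (D.models E).incl (theta (D.L ν) p q s x))
    (h1' : ∀ x ∈ Omp R p' q', H' x = (D.models E).incl (theta (D.L ν) p' q' s' x))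
    {x x' : ℂ × ℂ} (hx : x ∈ Om R p q) (hx' : x' ∈ Om R p' q') (h : H x = H' x') :
    ∃ k l : ℤ, s' = (D.a ν ^ k * D.b ν ^ l) s := by
  refine orbit_of_Hat_eq D E ν hs hs' hx hx' ?_
  rw [← eq_Hat (D.models E) (D.node ν) (E.cont ν) (E.inc_kap ν) hs hH h1 hx,
    ← eq_Hat (D.models E) (D.node ν) (E.cont ν) (E.inc_kap ν) hs' hH' h1' hx', h]

theorem ord_one {T : Type*} {a b : Equiv.Perm T} {s : T} (h : ∀ k l : ℤ, (a ^ k * b ^ l) s = s) :
    Ord a b s 1 1 :=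
  ⟨one_pos, one_pos, fun k l => ⟨fun _ => ⟨by simp, by simp⟩, fun _ => h k l⟩⟩

/-- **[NINJ]** The nodes of the labels fixed by the local monodromy are distinct. -/
theorem ninj (ν : ι) {s s' : S} (hs : ∀ k l : ℤ, (D.a ν ^ k * D.b ν ^ l) s = s)
    (hs' : ∀ k l : ℤ, (D.a ν ^ k * D.b ν ^ l) s' = s') {H H' : ℂ × ℂ → (D.models E).Cmp}
    (hH : ContinuousOn H (Om R 1 1)) (hH' : ContinuousOn H' (Om R 1 1))
    (h1 : ∀ x ∈ Omp R 1 1, H x = (D.models E).incl (theta (D.L ν) 1 1 s x))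
    (h1' : ∀ x ∈ Omp R 1 1, H' x = (D.models E).incl (theta (D.L ν) 1 1 s' x))
    (h0 : (0, 0) ∈ R) (h : H (0, 0) = H' (0, 0)) : s = s' := by
  have h0' : ((0 : ℂ), (0 : ℂ)) ∈ Om R 1 1 := by
    show ((0 : ℂ) ^ 1, (0 : ℂ) ^ 1) ∈ R
    simpa using h0
  obtain ⟨k, l, hkl⟩ := orbit_of_eq D E ν (ord_one hs) (ord_one hs') hH hH' h1 h1' h0' h0' h
  rw [hkl, hs]

theorem zero_mem_R : ((0 : ℂ), (0 : ℂ)) ∈ H142.R := by
  intro t ht
  have h : ((t : ℝ) : ℂ) ≠ 0 := by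
    intro h0
    have := Complex.ofReal_eq_zero.1 h0
    linarith
  refine ⟨h.symm, h.symm, ?_⟩
  simpa using h.symm

end Vale.Agent.P300.H787
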